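import Mathlib

/-!
# P004: squarefree numbers and fundamental discriminants, counted by classes modulo `68`
-/

open Finset Filter Topology
open scoped ArithmeticFunction.Moebius

namespace Vale.Agent.P004.H179.Dens

/-- fundamental discriminants other than `1` -/
def Fd (D : ℤ) : Prop :=
  D ≠ 1 ∧ ((D % 4 = 1 ∧ Squarefree D) ∨
    ∃ d : ℤ, D = 4 * d ∧ (d % 4 = 2 ∨ d % 4 = 3) ∧ Squarefree d)

open scoped Classical in
/-- the fundamental discriminants `D ≠ 1` with `|D| ≤ X` -/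
noncomputable def Fm (X : ℕ) : Finset ℤ := (Finset.Icc (-(X : ℤ)) X).filter Fd

/-- the number of squarefree `m ≤ Y`, `m ≡ a mod 68` -/
noncomputable def Na (a Y : ℕ) : ℕ :=
  ((Finset.Icc 1 Y).filter (fun m => Squarefree m ∧ m % 68 = a)).card

/-- the number of `m ≤ Y`, `m ≡ a mod 68`, `d² ∣ m` -/
def Ma (d a Y : ℕ) : ℕ := ((Finset.Icc 1 Y).filter (fun m => m % 68 = a ∧ d ^ 2 ∣ m)).card

lemma sq_dvd_iff {g q d : ℕ} (hg : g ≠ 0) (hq : Squarefree q) : d ^ 2 ∣ g ^ 2 * q ↔ d ∣ g := by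
  constructor
  · intro h
    have hq0 := hq.ne_zero
    have hn : g ^ 2 * q ≠ 0 := mul_ne_zero (pow_ne_zero _ hg) hq0
    have hd0 : d ≠ 0 := by
      rintro rfl
      rw [zero_pow two_ne_zero, zero_dvd_iff] at h
      exact hn h
    rw [← Nat.factorization_le_iff_dvd hd0 hg]
    intro p
    have h1 := (Nat.factorization_le_iff_dvd (pow_ne_zero 2 hd0) hn).2 h p
    rw [Nat.factorization_mul (pow_ne_zero _ hg) hq0, Nat.factorization_pow,
      Nat.factorization_pow] at h1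
    simp only [Finsupp.add_apply, Finsupp.smul_apply, smul_eq_mul] at h1
    have h2 := (Nat.squarefree_iff_factorization_le_one hq0).1 hq p
    omega
  · intro h
    exact (pow_dvd_pow_of_dvd h 2).trans (Dvd.intro _ rfl)

lemma sum_mu_sq {m Y : ℕ} (hm : 1 ≤ m) (hmY : m ≤ Y) :
    ∑ d ∈ Finset.Icc 1 (Nat.sqrt Y), (if d ^ 2 ∣ m then (μ d : ℤ) else 0) =
      if Squarefree m then 1 else 0 := by
  obtain ⟨q, g, hq0, hg0, hgq, hq⟩ := Nat.sq_mul_squarefree_of_pos hm
  have hg : g ≠ 0 := hg0.ne'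
  have h1 : ∑ d ∈ Finset.Icc 1 (Nat.sqrt Y), (if d ^ 2 ∣ m then (μ d : ℤ) else 0) =
      ∑ d ∈ g.divisors, (μ d : ℤ) := by
    rw [← Finset.sum_filter]
    refine Finset.sum_congr ?_ fun _ _ => rfl
    ext d
    rw [Finset.mem_filter, Finset.mem_Icc, Nat.mem_divisors, ← hgq, sq_dvd_iff hg hq]
    constructor
    · rintro ⟨_, h⟩; exact ⟨h, hg⟩
    · rintro ⟨h, _⟩
      refine ⟨⟨Nat.pos_of_dvd_of_pos h hg0, ?_⟩, h⟩
      rw [Nat.le_sqrt, ← sq]
      have h2 : d ^ 2 ∣ g ^ 2 * q := (sq_dvd_iff hg hq).2 h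
      exact (Nat.le_of_dvd (by rw [hgq]; exact hm) h2).trans (by rw [hgq]; exact hmY)
  rw [h1]
  have h3 : ∑ d ∈ g.divisors, (μ d : ℤ) = if g = 1 then 1 else 0 := by
    have := ArithmeticFunction.coe_zeta_mul_moebius
    have h4 := congrArg (fun f : ArithmeticFunction ℤ => f g) this
    simp only [ArithmeticFunction.coe_zeta_mul_apply, ArithmeticFunction.one_apply] at h4
    exact h4
  rw [h3]
  congr 1
  apply propext
  constructor
  · rintro rfl
    rw [← hgq, one_pow, one_mul]; exact hq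
  · intro h
    rw [← hgq] at h
    have h5 := h g ⟨q, by ring⟩
    exact Nat.isUnit_iff.1 h5

lemma Na_eq (a Y : ℕ) : (Na a Y : ℤ) = ∑ d ∈ Finset.Icc 1 (Nat.sqrt Y), (μ d : ℤ) * Ma d a Y := by
  have h1 : (Na a Y : ℤ) = ∑ m ∈ Finset.Icc 1 Y, ∑ d ∈ Finset.Icc 1 (Nat.sqrt Y),
      (if m % 68 = a ∧ d ^ 2 ∣ m then (μ d : ℤ) else 0) := by
    unfold Na
    rw [Finset.card_filter, Nat.cast_sum]
    refine Finset.sum_congr rfl fun m hm => ?_
    rw [Finset.mem_Icc] at hm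
    by_cases ha : m % 68 = a
    · simp only [ha, true_and, and_true]
      rw [sum_mu_sq hm.1 hm.2]
      split_ifs <;> simp
    · simp [ha]
  rw [h1, Finset.sum_comm]
  refine Finset.sum_congr rfl fun d _ => ?_
  unfold Ma
  rw [Finset.card_filter, Nat.cast_sum, Finset.mul_sum]
  refine Finset.sum_congr rfl fun m _ => ?_
  split_ifs <;> simp

/-- an arithmetic progression -/
lemma card_prog {Y r v : ℕ} (hr : 0 < r) :
    |(((Finset.Icc 1 Y).filter (fun m => m ≡ v [MOD r])).card : ℝ) - Y / r| ≤ 1 := by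
  have h1 : (Finset.Icc 1 Y).filter (fun m => m ≡ v [MOD r]) =
      (Finset.Ioc 0 Y).filter (fun m => m ≡ v [MOD r]) := by
    congr 1
  rw [h1]
  have h2 := Nat.Ioc_filter_modEq_card 0 Y hr v
  have h3 : ((((Finset.Ioc 0 Y).filter (fun m => m ≡ v [MOD r])).card : ℤ) : ℝ) =
    ((max (⌊((Y : ℚ) - v) / r⌋ - ⌊(((0 : ℕ) : ℚ) - v) / r⌋) 0 : ℤ) : ℝ) := by
    exact_mod_cast h2
  rw [Int.cast_natCast] at h3
  rw [h3]
  have hr' : (0 : ℚ) < r := by exact_mod_cast hr
  have h4 : ⌊(((0 : ℕ) : ℚ) - v) / r⌋ ≤ ⌊((Y : ℚ) - v) / r⌋ := by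
    apply Int.floor_le_floor
    apply div_le_div_of_nonneg_right _ hr'.le
    have : (0 : ℚ) ≤ Y := by positivity
    push_cast
    linarith
  rw [max_eq_left (by omega)]
  set A := ((Y : ℚ) - v) / r with hA
  set B := (((0 : ℕ) : ℚ) - v) / r with hB
  have h5 := Int.floor_le A
  have h6 := Int.lt_floor_add_one A
  have h7 := Int.floor_le B
  have h8 := Int.lt_floor_add_one B
  have h9 : A - B = Y / r := by rw [hA, hB]; push_cast; ring
  have h10 : ((Y : ℝ) / r) = ((A - B : ℚ) : ℝ) := by rw [h9]; push_cast; ring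
  rw [h10]
  have h11 : |((⌊A⌋ - ⌊B⌋ : ℤ) : ℚ) - (A - B)| ≤ 1 := by
    rw [abs_le]
    push_cast
    constructor <;> linarith
  have h12 : ((|((⌊A⌋ - ⌊B⌋ : ℤ) : ℚ) - (A - B)| : ℚ) : ℝ) ≤ ((1 : ℚ) : ℝ) := by
    exact_mod_cast h11
  push_cast at h12 ⊢
  exact h12

lemma Ma_zero {d a Y : ℕ} (ha : a.Coprime 68) (hd : ¬ d.Coprime 68) : Ma d a Y = 0 := by
  unfold Ma
  rw [Finset.card_eq_zero, Finset.filter_eq_empty_iff]
  rintro m - ⟨h1, h2⟩
  apply hd
  have h3 : m.Coprime 68 := by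
    have h4 : Nat.gcd m 68 = Nat.gcd (m % 68) 68 := (Nat.mod_modEq m 68).symm.gcd_eq
    rw [h1] at h4
    exact h4.trans ha
  exact Nat.Coprime.coprime_dvd_left ((dvd_pow_self d two_ne_zero).trans h2) h3

lemma Ma_est {d a Y : ℕ} (hd0 : 1 ≤ d) (ha8 : a < 68) (hd : d.Coprime 68) :
    |(Ma d a Y : ℝ) - Y / (68 * d ^ 2)| ≤ 1 := by
  have hc : (68 : ℕ).Coprime (d ^ 2) := (Nat.Coprime.pow_left 2 hd).symm
  obtain ⟨v, hv1, hv2⟩ := Nat.chineseRemainder hc a 0
  have h1 : Ma d a Y = ((Finset.Icc 1 Y).filter (fun m => m ≡ v [MOD (68 * d ^ 2)])).card := by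
    unfold Ma
    congr 1
    ext m
    simp only [Finset.mem_filter, and_congr_right_iff]
    intro _
    rw [← Nat.modEq_and_modEq_iff_modEq_mul hc]
    constructor
    · rintro ⟨h2, h3⟩
      refine ⟨?_, ?_⟩
      · refine Nat.ModEq.trans ?_ hv1.symm
        rw [Nat.ModEq, h2, Nat.mod_eq_of_lt ha8]
      · refine Nat.ModEq.trans ?_ hv2.symm
        exact (Nat.modEq_zero_iff_dvd).2 h3
    · rintro ⟨h2, h3⟩
      refine ⟨?_, ?_⟩
      · have := h2.trans hv1
        rw [Nat.ModEq, Nat.mod_eq_of_lt ha8] at this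
        exact this
      · exact (Nat.modEq_zero_iff_dvd).1 (h3.trans hv2)
  rw [h1]
  have h2 := card_prog (Y := Y) (r := 68 * d ^ 2) (v := v) (by positivity)
  push_cast at h2
  exact h2

/-- the coefficients of the density -/
noncomputable def cf (d : ℕ) : ℝ := if d.Coprime 68 then (μ d : ℝ) / d ^ 2 else 0

lemma abs_cf (d : ℕ) : |cf d| ≤ 1 / (d : ℝ) ^ 2 := by
  unfold cf
  split_ifs
  · rw [abs_div, abs_of_nonneg (by positivity : (0 : ℝ) ≤ (d : ℝ) ^ 2)]
    have h1 : |((μ d : ℤ) : ℝ)| ≤ 1 := by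
      have := ArithmeticFunction.abs_moebius_le_one (n := d)
      exact_mod_cast this
    gcongr
  · rw [abs_zero]; positivity

lemma summable_cf : Summable cf :=
  Summable.of_norm_bounded (Real.summable_one_div_nat_pow.2 one_lt_two)
    (fun d => by rw [Real.norm_eq_abs]; exact abs_cf d)

lemma Na_est {a Y : ℕ} (ha8 : a < 68) (ha : a.Coprime 68) :
    |(Na a Y : ℝ) - Y / 68 * ∑ d ∈ Finset.Icc 1 (Nat.sqrt Y), cf d| ≤ Nat.sqrt Y := by
  have h1 : (Na a Y : ℝ) = ∑ d ∈ Finset.Icc 1 (Nat.sqrt Y), (μ d : ℝ) * Ma d a Y := by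
    have := Na_eq a Y
    have h2 : (((Na a Y : ℕ) : ℤ) : ℝ) =
        ((∑ d ∈ Finset.Icc 1 (Nat.sqrt Y), (μ d : ℤ) * Ma d a Y : ℤ) : ℝ) := by rw [this]
    push_cast at h2
    exact h2
  rw [h1, Finset.mul_sum, ← Finset.sum_sub_distrib]
  refine (Finset.abs_sum_le_sum_abs _ _).trans ?_
  have h3 : ∀ d ∈ Finset.Icc 1 (Nat.sqrt Y),
      |(μ d : ℝ) * Ma d a Y - Y / 68 * cf d| ≤ 1 := by
    intro d hd
    rw [Finset.mem_Icc] at hd
    unfold cf
    split_ifs with hc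
    · have h4 := Ma_est (Y := Y) hd.1 ha8 hc
      have h5 : |((μ d : ℤ) : ℝ)| ≤ 1 := by
        have := ArithmeticFunction.abs_moebius_le_one (n := d)
        exact_mod_cast this
      have h6 : (μ d : ℝ) * Ma d a Y - Y / 68 * ((μ d : ℝ) / d ^ 2) =
          (μ d : ℝ) * ((Ma d a Y : ℝ) - Y / (68 * d ^ 2)) := by
        have : (d : ℝ) ≠ 0 := by
          have := hd.1
          positivity
        field_simp
      rw [h6, abs_mul]
      calc |((μ d : ℤ) : ℝ)| * |(Ma d a Y : ℝ) - Y / (68 * d ^ 2)| ≤ 1 * 1 := by gcongr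
        _ = 1 := by norm_num
    · rw [Ma_zero ha hc]
      simp
  refine (Finset.sum_le_sum h3).trans ?_
  rw [Finset.sum_const, Nat.card_Icc, nsmul_eq_mul, mul_one]
  simp

/-- the density of one class -/
noncomputable def kap : ℝ := 1 / 68 * ∑' d, cf d

theorem Na_tendsto {a : ℕ} (ha8 : a < 68) (ha : a.Coprime 68) :
    Tendsto (fun Y : ℕ => (Na a Y : ℝ) / Y) atTop (𝓝 kap) := by
  have h0 : Tendsto (fun Y : ℕ => Nat.sqrt Y) atTop atTop := by
    refine tendsto_atTop_mono' atTop (f₁ := fun Y : ℕ => Nat.sqrt Y) (Eventually.of_forall fun _ => le_rfl) ?_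
    rw [tendsto_atTop_atTop]
    intro b
    refine ⟨b ^ 2, fun Y hY => ?_⟩
    rw [Nat.le_sqrt, ← sq]
    exact hY
  have h1 : Tendsto (fun n : ℕ => ∑ d ∈ Finset.Icc 1 n, cf d) atTop (𝓝 (∑' d, cf d)) := by
    have h2 := summable_cf.hasSum.tendsto_sum_nat
    have h3 := h2.comp (tendsto_add_atTop_nat 1)
    refine h3.congr fun n => ?_
    simp only [Function.comp]
    rw [Finset.range_eq_Ico, Finset.sum_eq_sum_Ico_succ_bot (by omega)]
    have h4 : cf 0 = 0 := by unfold cf; simp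
    rw [h4, zero_add]
    rfl
  have h2 : Tendsto (fun Y : ℕ => 1 / 68 * ∑ d ∈ Finset.Icc 1 (Nat.sqrt Y), cf d) atTop
      (𝓝 kap) := (h1.comp h0).const_mul _
  have h3 : Tendsto (fun Y : ℕ => (Nat.sqrt Y : ℝ) / Y) atTop (𝓝 0) := by
    have h4 : Tendsto (fun Y : ℕ => 1 / (Nat.sqrt Y : ℝ)) atTop (𝓝 0) :=
      (tendsto_one_div_atTop_nhds_zero_nat (𝕜 := ℝ)).comp h0
    refine squeeze_zero' (Eventually.of_forall fun Y => by positivity) ?_ h4
    filter_upwards [eventually_ge_atTop 1] with Y hY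
    have h5 : 0 < Nat.sqrt Y := Nat.sqrt_pos.2 hY
    have h6 : (Nat.sqrt Y : ℝ) * Nat.sqrt Y ≤ Y := by exact_mod_cast Nat.sqrt_le Y
    have h7 : (0 : ℝ) < Nat.sqrt Y := by exact_mod_cast h5
    have h8 : (0 : ℝ) < Y := by exact_mod_cast hY
    rw [div_le_div_iff₀ h8 h7]
    linarith
  have h4 : Tendsto (fun Y : ℕ => (Na a Y : ℝ) / Y -
      1 / 68 * ∑ d ∈ Finset.Icc 1 (Nat.sqrt Y), cf d) atTop (𝓝 0) := by
    refine squeeze_zero_norm' ?_ h3
    filter_upwards [eventually_ge_atTop 1] with Y hY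
    have h8 : (0 : ℝ) < Y := by exact_mod_cast hY
    have h5 := Na_est (Y := Y) ha8 ha
    rw [Real.norm_eq_abs]
    have h6 : (Na a Y : ℝ) / Y - 1 / 68 * ∑ d ∈ Finset.Icc 1 (Nat.sqrt Y), cf d =
        ((Na a Y : ℝ) - Y / 68 * ∑ d ∈ Finset.Icc 1 (Nat.sqrt Y), cf d) / Y := by
      field_simp
    rw [h6, abs_div, abs_of_pos h8]
    gcongr
  have h5 := h4.add h2
  simpa using h5

/-- the classes coprime to `68` -/
def K68 : Finset ℕ := (Finset.range 68).filter (fun a => a.Coprime 68)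

/-- the number of odd squarefree `n ≤ Y` -/
noncomputable def Od (Y : ℕ) : ℕ := ((Finset.Icc 1 Y).filter (fun n => Squarefree n ∧ n % 2 = 1)).card

/-- the number of squarefree `n ≤ Y` coprime to `34` -/
noncomputable def Cp (Y : ℕ) : ℕ :=
  ((Finset.Icc 1 Y).filter (fun n => Squarefree n ∧ n.Coprime 68)).card

/-- the sum over classes -/
lemma sum_Na (T : Finset ℕ) (Y : ℕ) :
    ∑ a ∈ T, Na a Y = ((Finset.Icc 1 Y).filter (fun n => Squarefree n ∧ n % 68 ∈ T)).card := by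
  have h1 := Finset.card_eq_sum_card_fiberwise (s := (Finset.Icc 1 Y).filter
    (fun n => Squarefree n ∧ n % 68 ∈ T)) (f := fun n => n % 68) (t := T)
    (by
      intro n hn
      have hn' : n ∈ (Finset.Icc 1 Y).filter (fun n => Squarefree n ∧ n % 68 ∈ T) := hn
      exact (Finset.mem_filter.1 hn').2.2)
  rw [h1]
  refine Finset.sum_congr rfl fun a ha => ?_
  unfold Na
  congr 1
  ext n
  simp only [Finset.mem_filter]
  constructor
  · rintro ⟨h2, h3, h4⟩
    exact ⟨⟨h2, h3, by rw [h4]; exact ha⟩, h4⟩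
  · rintro ⟨⟨h2, h3, -⟩, h4⟩
    exact ⟨h2, h3, h4⟩

lemma Cp_eq (Y : ℕ) : Cp Y = ∑ a ∈ K68, Na a Y := by
  rw [sum_Na K68]
  unfold Cp
  congr 1
  ext n
  simp only [Finset.mem_filter, and_congr_right_iff]
  intro _ _
  have h4 : Nat.gcd n 68 = Nat.gcd (n % 68) 68 := (Nat.mod_modEq n 68).symm.gcd_eq
  unfold K68
  rw [Finset.mem_filter, Finset.mem_range]
  unfold Nat.Coprime
  rw [h4]
  constructor
  · exact fun h => ⟨Nat.mod_lt _ (by norm_num), h⟩
  · exact fun h => h.2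

lemma cop68 {n : ℕ} : n.Coprime 68 ↔ n % 2 = 1 ∧ ¬ 17 ∣ n := by
  rw [show (68 : ℕ) = 2 ^ 2 * 17 by norm_num, Nat.coprime_mul_iff_right,
    Nat.coprime_pow_right_iff (by norm_num), Nat.coprime_comm (m := 17),
    Nat.coprime_comm (m := 2), Nat.Prime.coprime_iff_not_dvd Nat.prime_two,
    Nat.Prime.coprime_iff_not_dvd (by norm_num : Nat.Prime 17)]
  constructor
  · rintro ⟨h1, h2⟩; exact ⟨by omega, h2⟩
  · rintro ⟨h1, h2⟩; exact ⟨by omega, h2⟩

lemma Od_eq (Y : ℕ) : Od Y = Cp Y + Cp (Y / 17) := by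
  classical
  have h1 : (Finset.Icc 1 Y).filter (fun n => Squarefree n ∧ n % 2 = 1) =
      (Finset.Icc 1 Y).filter (fun n => Squarefree n ∧ n.Coprime 68) ∪
        ((Finset.Icc 1 (Y / 17)).filter (fun n => Squarefree n ∧ n.Coprime 68)).image
          (fun n => 17 * n) := by
    ext n
    simp only [Finset.mem_union, Finset.mem_filter, Finset.mem_image, Finset.mem_Icc, cop68]
    constructor
    · rintro ⟨⟨h1, h2⟩, h3, h4⟩
      by_cases h17 : 17 ∣ n
      · right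
        obtain ⟨m, rfl⟩ := h17
        rw [Nat.squarefree_mul_iff] at h3
        obtain ⟨h5, h6, h7⟩ := h3
        refine ⟨m, ⟨⟨by omega, by omega⟩, h7, by omega, ?_⟩, rfl⟩
        rwa [← Nat.Prime.coprime_iff_not_dvd (by norm_num : Nat.Prime 17)]
      · left
        exact ⟨⟨h1, h2⟩, h3, h4, h17⟩
    · rintro (⟨h1, h2, h3, h4⟩ | ⟨m, ⟨⟨h1, h2⟩, h3, h4, h5⟩, rfl⟩)
      · exact ⟨h1, h2, h3⟩
      · refine ⟨⟨by omega, by omega⟩, ?_, by omega⟩
        rw [Nat.squarefree_mul_iff]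
        refine ⟨?_, (by norm_num : Nat.Prime 17).squarefree, h3⟩
        rwa [Nat.Prime.coprime_iff_not_dvd (by norm_num : Nat.Prime 17)]
  unfold Od Cp
  rw [h1, Finset.card_union_of_disjoint, Finset.card_image_of_injective]
  · intro a b h
    simp only at h
    omega
  · rw [Finset.disjoint_left]
    intro n hn1 hn2
    rw [Finset.mem_filter, cop68] at hn1
    rw [Finset.mem_image] at hn2
    obtain ⟨m, -, rfl⟩ := hn2
    exact hn1.2.2.2 (Dvd.intro _ rfl)

lemma card_K68 : K68.card = 32 := by decide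

theorem Cp_tendsto : Tendsto (fun Y : ℕ => (Cp Y : ℝ) / Y) atTop (𝓝 (32 * kap)) := by
  have h1 : (fun Y : ℕ => (Cp Y : ℝ) / Y) = fun Y : ℕ => ∑ a ∈ K68, (Na a Y : ℝ) / Y := by
    funext Y
    rw [Cp_eq, Nat.cast_sum, Finset.sum_div]
  rw [h1]
  have h2 : (32 : ℝ) * kap = ∑ a ∈ K68, kap := by
    rw [Finset.sum_const, card_K68, nsmul_eq_mul]
    norm_num
  rw [h2]
  refine tendsto_finsetSum _ fun a ha => ?_
  unfold K68 at ha
  rw [Finset.mem_filter, Finset.mem_range] at ha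
  exact Na_tendsto ha.1 ha.2

/-- rescaling -/
lemma tendsto_div {f : ℕ → ℕ} {l : ℝ} (h : Tendsto (fun Y : ℕ => (f Y : ℝ) / Y) atTop (𝓝 l))
    {r : ℕ} (hr : 0 < r) : Tendsto (fun Y : ℕ => (f (Y / r) : ℝ) / Y) atTop (𝓝 (l / r)) := by
  have h1 : Tendsto (fun Y : ℕ => Y / r) atTop atTop := by
    rw [tendsto_atTop_atTop]
    intro b
    refine ⟨b * r, fun Y hY => ?_⟩
    rw [Nat.le_div_iff_mul_le hr]
    exact hY
  have h2 := h.comp h1
  have h3 : Tendsto (fun Y : ℕ => ((Y / r : ℕ) : ℝ) / Y) atTop (𝓝 (1 / r)) := by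
    have h5 : Tendsto (fun Y : ℕ => 1 / (Y : ℝ)) atTop (𝓝 0) := tendsto_one_div_atTop_nhds_zero_nat
    have h4 : Tendsto (fun Y : ℕ => ((Y / r : ℕ) : ℝ) / Y - 1 / r) atTop (𝓝 0) := by
      refine squeeze_zero_norm' ?_ h5
      filter_upwards [eventually_ge_atTop 1] with Y hY
      have h8 : (0 : ℝ) < Y := by exact_mod_cast hY
      have hr' : (0 : ℝ) < r := by exact_mod_cast hr
      have h9 : (Y : ℝ) = r * ((Y / r : ℕ) : ℝ) + ((Y % r : ℕ) : ℝ) := by
        exact_mod_cast (Nat.div_add_mod Y r).symm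
      have h10 : ((Y % r : ℕ) : ℝ) ≤ r := by exact_mod_cast (Nat.mod_lt Y hr).le
      have h11 : (0 : ℝ) ≤ ((Y % r : ℕ) : ℝ) := by positivity
      have h12 : ((Y / r : ℕ) : ℝ) / Y - 1 / r = -(((Y % r : ℕ) : ℝ) / r) / Y := by
        have : ((Y / r : ℕ) : ℝ) = (Y - ((Y % r : ℕ) : ℝ)) / r := by
          rw [eq_div_iff hr'.ne']
          linarith
        rw [this]
        field_simp
        ring
      rw [Real.norm_eq_abs, h12, abs_div, abs_neg, abs_of_nonneg (by positivity),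
        abs_of_pos h8]
      gcongr
      rw [div_le_one hr']
      exact h10
    have := h4.add_const (1 / (r : ℝ))
    simpa using this
  have h4 := h2.mul h3
  rw [mul_one_div] at h4
  refine h4.congr' ?_
  filter_upwards [eventually_ge_atTop r] with Y hY
  have h5 : 0 < Y / r := Nat.div_pos hY hr
  have h6 : ((Y / r : ℕ) : ℝ) ≠ 0 := by positivity
  have h7 : (Y : ℝ) ≠ 0 := by
    have : 0 < Y := by omega
    positivity
  simp only [Function.comp]
  field_simp

theorem Od_tendsto : Tendsto (fun Y : ℕ => (Od Y : ℝ) / Y) atTop (𝓝 (32 * kap * (18 / 17))) := by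
  have h1 := Cp_tendsto
  have h2 := tendsto_div h1 (r := 17) (by norm_num)
  have h3 := h1.add h2
  have h4 : 32 * kap + 32 * kap / (17 : ℕ) = 32 * kap * (18 / 17) := by
    push_cast; ring
  rw [h4] at h3
  refine h3.congr fun Y => ?_
  rw [Od_eq]
  push_cast
  ring

/-! ### fundamental discriminants -/

open scoped Classical in
noncomputable def Fi (D : ℤ) : ℕ := if Fd D then 1 else 0

lemma fd_odd {D : ℤ} (hD : D % 2 = 1) : Fd D ↔ D ≠ 1 ∧ D % 4 = 1 ∧ Squarefree D := by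
  unfold Fd
  constructor
  · rintro ⟨h1, h | ⟨d, hd, _⟩⟩
    · exact ⟨h1, h⟩
    · omega
  · rintro ⟨h1, h2⟩
    exact ⟨h1, Or.inl h2⟩

lemma fd_even {D : ℤ} (hD : D % 2 = 0) :
    Fd D ↔ ∃ d : ℤ, D = 4 * d ∧ (d % 4 = 2 ∨ d % 4 = 3) ∧ Squarefree d := by
  unfold Fd
  constructor
  · rintro ⟨h1, h | h⟩
    · omega
    · exact h
  · intro h
    exact ⟨by rintro rfl; norm_num at hD, Or.inr h⟩

lemma neg_sqf {n : ℤ} : Squarefree (-n) ↔ Squarefree n := by
  rw [← Int.squarefree_natAbs, ← Int.squarefree_natAbs, Int.natAbs_neg]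

/-- indicator of the odd squarefree numbers -/
noncomputable def oi (m : ℕ) : ℕ := if Squarefree m ∧ m % 2 = 1 then 1 else 0

lemma Fi_pair (m : ℕ) (hm : 1 ≤ m) : Fi (m : ℤ) + Fi (-(m : ℤ)) =
    (if m = 1 then 0 else oi m) + (if 4 ∣ m then oi (m / 4) else 0) +
      2 * (if 8 ∣ m then oi (m / 8) else 0) := by
  classical
  rcases Nat.even_or_odd m with hev | hodd
  · have hm2 : m % 2 = 0 := Nat.even_iff.1 hev
    have h0 : oi m = 0 := by unfold oi; rw [if_neg]; rintro ⟨_, h⟩; omega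
    rw [h0, ite_self, zero_add]
    have i1 : (m : ℤ) % 2 = 0 := by omega
    have i2 : (-(m : ℤ)) % 2 = 0 := by omega
    unfold Fi
    by_cases h4 : 4 ∣ m
    · obtain ⟨n, rfl⟩ := h4
      have hn : 1 ≤ n := by omega
      have e1 : Fd ((4 * n : ℕ) : ℤ) ↔ (n % 4 = 2 ∨ n % 4 = 3) ∧ Squarefree n := by
        rw [fd_even i1]
        constructor
        · rintro ⟨d, hd, h5, h6⟩
          have : d = n := by push_cast at hd; omega
          subst this
          exact ⟨by omega, Int.squarefree_natCast.1 h6⟩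
        · rintro ⟨h5, h6⟩
          exact ⟨n, by push_cast; ring, by omega, Int.squarefree_natCast.2 h6⟩
      have e2 : Fd (-((4 * n : ℕ) : ℤ)) ↔ (n % 4 = 2 ∨ n % 4 = 1) ∧ Squarefree n := by
        rw [fd_even i2]
        constructor
        · rintro ⟨d, hd, h5, h6⟩
          have : d = -(n : ℤ) := by push_cast at hd; omega
          subst this
          exact ⟨by omega, Int.squarefree_natCast.1 (neg_sqf.1 h6)⟩
        · rintro ⟨h5, h6⟩
          exact ⟨-(n : ℤ), by push_cast; ring, by omega,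
            neg_sqf.2 (Int.squarefree_natCast.2 h6)⟩
      rw [if_congr e1 rfl rfl, if_congr e2 rfl rfl, if_pos (Dvd.intro _ rfl),
        Nat.mul_div_cancel_left _ (by norm_num)]
      by_cases hsq : Squarefree n
      · have h40 : n % 4 ≠ 0 := by
          intro h0
          have h7 := hsq 2 (by
            have : 4 ∣ n := Nat.dvd_of_mod_eq_zero h0
            exact (show (2 * 2 : ℕ) = 4 by norm_num) ▸ this)
          rw [Nat.isUnit_iff] at h7
          omega
        rcases (by omega : n % 4 = 1 ∨ n % 4 = 2 ∨ n % 4 = 3) with h | h | h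
        · rw [if_neg (by rintro ⟨h8, _⟩; omega), if_pos ⟨by omega, hsq⟩]
          unfold oi
          rw [if_pos ⟨hsq, by omega⟩, if_neg (by omega)]
        · rw [if_pos ⟨by omega, hsq⟩, if_pos ⟨by omega, hsq⟩]
          obtain ⟨k, rfl⟩ : ∃ k, n = 2 * k := ⟨n / 2, by omega⟩
          have hk : Squarefree k := hsq.squarefree_of_dvd (Dvd.intro_left _ rfl)
          unfold oi
          have e8 : 4 * (2 * k) / 8 = k := by omega
          rw [if_neg (by rintro ⟨_, h9⟩; omega), if_pos (by omega), e8,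
            if_pos ⟨hk, by omega⟩]
        · rw [if_pos ⟨by omega, hsq⟩, if_neg (by rintro ⟨h8, _⟩; omega)]
          unfold oi
          rw [if_pos ⟨hsq, by omega⟩, if_neg (by omega)]
      · rw [if_neg (fun h => hsq h.2), if_neg (fun h => hsq h.2)]
        unfold oi
        rw [if_neg (fun h => hsq h.1)]
        by_cases h8 : 8 ∣ 4 * n
        · rw [if_pos h8]
          obtain ⟨k, rfl⟩ : ∃ k, n = 2 * k := ⟨n / 2, by omega⟩
          have e8 : 4 * (2 * k) / 8 = k := by omega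
          rw [e8, if_neg]
          rintro ⟨h9, h10⟩
          apply hsq
          rw [Nat.squarefree_mul_iff]
          refine ⟨?_, Nat.prime_two.squarefree, h9⟩
          rw [Nat.Prime.coprime_iff_not_dvd Nat.prime_two]
          omega
        · rw [if_neg h8]
    · have n1 : ¬ Fd (m : ℤ) := by
        rw [fd_even i1]
        rintro ⟨d, hd, _⟩
        apply h4
        have : (4 : ℤ) ∣ (m : ℤ) := ⟨d, hd⟩
        exact_mod_cast this
      have n2 : ¬ Fd (-(m : ℤ)) := by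
        rw [fd_even i2]
        rintro ⟨d, hd, _⟩
        apply h4
        have : (4 : ℤ) ∣ (m : ℤ) := ⟨-d, by linarith⟩
        exact_mod_cast this
      rw [if_neg n1, if_neg n2, if_neg h4, if_neg (by omega)]
  · have hm2 : m % 2 = 1 := Nat.odd_iff.1 hodd
    have i1 : (m : ℤ) % 2 = 1 := by omega
    have i2 : (-(m : ℤ)) % 2 = 1 := by omega
    unfold Fi
    rw [if_congr (fd_odd i1) rfl rfl, if_congr (fd_odd i2) rfl rfl, neg_sqf,
      Int.squarefree_natCast, if_neg (by omega : ¬ 4 ∣ m), if_neg (by omega : ¬ 8 ∣ m)]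
    unfold oi
    by_cases hsq : Squarefree m
    · rcases (by omega : m % 4 = 1 ∨ m % 4 = 3) with h | h
      · by_cases h1 : m = 1
        · subst h1
          norm_num
        · rw [if_pos ⟨by exact_mod_cast h1, by omega, hsq⟩,
            if_neg (by rintro ⟨_, h8, _⟩; omega), if_neg h1, if_pos ⟨hsq, hm2⟩]
      · have h1 : m ≠ 1 := by omega
        rw [if_neg (by rintro ⟨_, h8, _⟩; omega), if_pos ⟨by omega, by omega, hsq⟩,
          if_neg h1, if_pos ⟨hsq, hm2⟩]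
    · have h9 : (if Squarefree m ∧ m % 2 = 1 then 1 else 0 : ℕ) = 0 :=
        if_neg (fun h => hsq h.1)
      rw [if_neg (fun h => hsq h.2.2), if_neg (fun h => hsq h.2.2), h9, ite_self]

lemma sum_Icc_int (F : ℤ → ℕ) (h0 : F 0 = 0) (X : ℕ) :
    ∑ D ∈ Finset.Icc (-(X : ℤ)) X, F D = ∑ m ∈ Finset.Icc 1 X, (F (m : ℤ) + F (-(m : ℤ))) := by
  induction X with
  | zero => simp [h0]
  | succ X ih =>
    rw [Finset.sum_Icc_succ_top (by omega), ← ih]
    have h1 : Finset.Icc (-((X + 1 : ℕ) : ℤ)) ((X + 1 : ℕ) : ℤ) =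
        insert (-((X + 1 : ℕ) : ℤ)) (insert (((X + 1 : ℕ) : ℤ)) (Finset.Icc (-(X : ℤ)) X)) := by
      ext z
      simp only [Finset.mem_Icc, Finset.mem_insert]
      omega
    rw [h1, Finset.sum_insert, Finset.sum_insert]
    · ring
    · simp
    · simp only [Finset.mem_insert, Finset.mem_Icc, not_or]
      omega

lemma sum_dvd (r : ℕ) (hr : 0 < r) (f : ℕ → ℕ) (X : ℕ) :
    ∑ m ∈ Finset.Icc 1 X, (if r ∣ m then f (m / r) else 0) = ∑ n ∈ Finset.Icc 1 (X / r), f n := by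
  rw [← Finset.sum_filter]
  refine Finset.sum_nbij' (fun m => m / r) (fun n => r * n) ?_ ?_ ?_ ?_ ?_
  · intro m hm
    rw [Finset.mem_filter, Finset.mem_Icc] at hm
    obtain ⟨⟨h1, h2⟩, k, rfl⟩ := hm
    rw [Finset.mem_Icc, Nat.mul_div_cancel_left _ hr, Nat.le_div_iff_mul_le hr]
    refine ⟨?_, by rw [mul_comm]; exact h2⟩
    rcases Nat.eq_zero_or_pos k with rfl | h3
    · simp at h1
    · exact h3
  · intro n hn
    rw [Finset.mem_Icc, Nat.le_div_iff_mul_le hr] at hn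
    rw [Finset.mem_filter, Finset.mem_Icc]
    refine ⟨⟨?_, by rw [mul_comm]; exact hn.2⟩, Dvd.intro _ rfl⟩
    exact Nat.mul_pos hr hn.1
  · intro m hm
    rw [Finset.mem_filter] at hm
    exact Nat.mul_div_cancel' hm.2
  · intro n _
    exact Nat.mul_div_cancel_left _ hr
  · intro m _
    rfl

lemma Od_sum (Y : ℕ) : Od Y = ∑ m ∈ Finset.Icc 1 Y, oi m := by
  unfold Od oi
  rw [Finset.card_filter]

lemma card_Fm (X : ℕ) (hX : 1 ≤ X) : (Fm X).card + 1 = Od X + Od (X / 4) + 2 * Od (X / 8) := by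
  classical
  have h0 : Fi 0 = 0 := by
    unfold Fi
    rw [if_neg]
    rw [fd_even (by norm_num)]
    rintro ⟨d, hd, h, _⟩
    omega
  have h1 : (Fm X).card = ∑ D ∈ Finset.Icc (-(X : ℤ)) X, Fi D := by
    unfold Fm Fi
    rw [Finset.card_filter]
  rw [h1, sum_Icc_int Fi h0 X, Finset.sum_congr rfl fun m hm =>
    Fi_pair m (Finset.mem_Icc.1 hm).1, Finset.sum_add_distrib, Finset.sum_add_distrib,
    ← Finset.mul_sum, sum_dvd 4 (by norm_num), sum_dvd 8 (by norm_num), ← Od_sum, ← Od_sum,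
    Od_sum X]
  have h2 : ∑ m ∈ Finset.Icc 1 X, oi m = (∑ m ∈ Finset.Icc 1 X, if m = 1 then 0 else oi m) + 1 := by
    have h3 : (1 : ℕ) = ∑ m ∈ Finset.Icc 1 X, if m = 1 then oi m else 0 := by
      rw [Finset.sum_ite_eq' (Finset.Icc 1 X) 1 oi, if_pos (by simp [hX])]
      simp [oi]
    have h4 : ∑ m ∈ Finset.Icc 1 X, oi m = (∑ m ∈ Finset.Icc 1 X, if m = 1 then 0 else oi m) +
        ∑ m ∈ Finset.Icc 1 X, if m = 1 then oi m else 0 := by
      rw [← Finset.sum_add_distrib]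
      refine Finset.sum_congr rfl fun m _ => ?_
      split_ifs <;> simp
    rw [h4, ← h3]
  rw [h2]
  ring

theorem Fm_tendsto : Tendsto (fun X : ℕ => ((Fm X).card : ℝ) / X) atTop
    (𝓝 (32 * kap * (27 / 17))) := by
  have h1 := Od_tendsto
  have h2 := tendsto_div h1 (r := 4) (by norm_num)
  have h3 := tendsto_div h1 (r := 8) (by norm_num)
  have h5 : Tendsto (fun Y : ℕ => 1 / (Y : ℝ)) atTop (𝓝 0) := tendsto_one_div_atTop_nhds_zero_nat
  have h4 := ((h1.add h2).add (h3.const_mul 2)).sub h5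
  have e : 32 * kap * (18 / 17) + 32 * kap * (18 / 17) / (4 : ℕ) +
      2 * (32 * kap * (18 / 17) / (8 : ℕ)) - 0 = 32 * kap * (27 / 17) := by
    push_cast; ring
  rw [e] at h4
  refine h4.congr' ?_
  filter_upwards [eventually_ge_atTop 1] with X hX
  have h6 := card_Fm X hX
  have h7 : ((Fm X).card : ℝ) + 1 = Od X + Od (X / 4) + 2 * Od (X / 8) := by exact_mod_cast h6
  have h8 : ((Fm X).card : ℝ) = Od X + Od (X / 4) + 2 * Od (X / 8) - 1 := by linarith
  rw [h8]
  ring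

end Vale.Agent.P004.H179.Dens
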