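import Vale.Agent.P014.H71.MainP
import Vale.Agent.P014.H71.CntP
import Vale.Agent.P004.H26.R.Join
import Vale.Agent.P004G.H503.Fin3
import Vale.Agent.P004G.All

/-!
# P004: analytic rank zero for a positive proportion of the twists of the curves of conductor `17`
-/

open scoped NumberTheorySymbols

namespace Vale.Agent.P004.H179

open _root_.P004G _root_.P004G.ML
open Vale.Agent.P004.H26 (Cls Four JF same_four cls_four main_all)
open Vale.Agent.P004H.H742 (kron k2 kron_one kron_odd kron_two_pow kron_mul)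
open Vale.Agent.P004H.H641 (sqp sqp_spec sqf_unique)
open Vale.Agent.P014 (tw NP)
open Vale.Agent.P014.H687 (an rec_odd rec_two LFunction_tw)
open Vale.Agent.P014.H70 (r3)

/-- the Kronecker symbol of a discriminant `D = 4 k + 1` -/
theorem kron_eq (k : ℤ) (n : ℕ) (hn : n ≠ 0) :
    kron (4 * k + 1) n = jacobiSym (n : ℤ) (4 * k + 1).natAbs := by
  induction n using Nat.recOnMul with
  | zero => exact absurd rfl hn
  | one => rw [kron_one]; simp
  | prime p hp =>
    by_cases h2 : p = 2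
    · subst h2
      have h := kron_two_pow (4 * k + 1) 1
      rw [pow_one, pow_one] at h
      rw [h]
      have h3 := rec_two k
      have h4 : ((2 : ℕ) : ℤ) = 2 := rfl
      rw [h4, h3]
      unfold k2
      rw [if_neg (by omega)]
      by_cases h5 : k % 2 = 0
      · rw [if_pos h5, if_pos (by omega)]
      · rw [if_neg h5, if_neg (by omega)]
    · rw [rec_odd hp h2, kron_odd]
      rcases hp.eq_two_or_odd with h | h
      · exact absurd h h2
      · exact h
  | mul a b iha ihb =>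
    have ha : a ≠ 0 := left_ne_zero_of_mul hn
    have hb : b ≠ 0 := right_ne_zero_of_mul hn
    rw [kron_mul _ ha hb, iha ha, ihb hb, Nat.cast_mul, jacobiSym.mul_left]

variable {A B : ℤ}

theorem not17 {k : ℤ} (hk : Vale.Agent.P014.H71.Fam k) : ¬ (17 : ℤ) ∣ 4 * k + 1 := by
  intro h
  have h1 := hk.2.2
  have h2 : jacobiSym (4 * k + 1) 17 = 0 := by
    have : Fact (Nat.Prime 17) := ⟨by norm_num⟩
    rw [← jacobiSym.legendreSym.to_jacobiSym, legendreSym.eq_zero_iff]
    exact (ZMod.intCast_zmod_eq_zero_iff_dvd _ 17).2 (by exact_mod_cast h)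
  rw [h2] at h1
  have h3 : (4 * k + 1) = 0 := Int.sign_eq_zero_iff_zero.1 h1.symm
  omega

theorem lf_eq (hC : Cls A B) {k : ℤ} (hk : Vale.Agent.P014.H71.Fam k) (n : ℕ) :
    (tw k).LFunction n = LA (A * (4 * k + 1) ^ 2) (B * (4 * k + 1) ^ 3) n := by
  have hF : Fund1 (4 * k + 1) := by
    right
    refine ⟨?_, Or.inl ⟨by omega, hk.1⟩⟩
    have := hk.2.1
    omega
  rw [LFunction_tw k hk.1 (not17 hk) n, hC.lf _ hF n]
  rcases eq_or_ne n 0 with rfl | hn
  · have h0 : an r3 0 = 0 := Vale.Agent.P004.H26.H792.a_zero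
    rw [h0]; simp
  · rw [kron_eq k n hn, mul_comm]

/-- **analytic rank zero** for the good twists -/
theorem rank_zero (hC : Cls A B) {k : ℤ} (hk : Vale.Agent.P014.H71.Fam k)
    (hdet : (NP (4 * k + 1).natAbs).det ≠ 0) : aRk A B (4 * k + 1) = 0 := by
  obtain ⟨hfin, hsha⟩ := (Vale.Agent.P014.H71.Fam.det_iff hk).1 hdet
  obtain ⟨-, -, L, hL, -, h⟩ := Vale.Agent.P014.H71.Fam.main hk
  obtain ⟨h1, -, -⟩ := h hfin hsha
  have hLT : IsLT A B (4 * k + 1) L := by
    refine ⟨hL.1, fun s hs => ?_⟩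
    have h2 := hL.2 s hs
    have e : (fun n => ((Ec (A * (4 * k + 1) ^ 2) (B * (4 * k + 1) ^ 3)).LFunction n : ℂ)) =
        fun n => ((tw k).LFunction n : ℂ) := by
      funext n
      rw [lf_eq hC hk n]
      rfl
    rw [e]
    exact h2
  have hM : Modl A B := by
    obtain ⟨-, h2, -⟩ := main_all _root_.P004G.allMLG _root_.P004G.pfLent
      _root_.P004G.pfLparity hC (d := 1) one_ne_zero
    simpa using h2
  obtain ⟨⟨hc, -, -⟩, -, -⟩ := _root_.P004G.concl_all hC.disc hM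
  have hF : _root_.P004.IsFund (4 * k + 1) := by
    refine ⟨?_, Or.inl ⟨by omega, hk.1⟩⟩
    have := hk.2.1
    omega
  obtain ⟨L₀, -, hu, ho⟩ := hc _ hF
  rw [← hu L hLT] at ho
  have han : AnalyticAt ℂ L 1 := hL.1.analyticAt 1
  have h0 : analyticOrderAt L 1 = 0 := han.analyticOrderAt_eq_zero.2 h1
  rw [h0] at ho
  exact_mod_cast ho.symm

/-- the twist of the twist by `d` -/
noncomputable def fk (d k : ℤ) : ℤ := Dm (sqp (d * (4 * k + 1)))

theorem rank_fk (hC : Cls A B) {d k : ℤ} (hd : d ≠ 0) (hk : Vale.Agent.P014.H71.Fam k)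
    (hdet : (NP (4 * k + 1).natAbs).det ≠ 0) : aRk (A * d ^ 2) (B * d ^ 3) (fk d k) = 0 := by
  rw [← rank_zero hC hk hdet]
  have hm0 : (4 * k + 1) ≠ 0 := hk.1.ne_zero
  obtain ⟨h1, s, h2, h3⟩ := sqp_spec (mul_ne_zero hd hm0)
  set q := sqp (d * (4 * k + 1)) with hq
  obtain ⟨c, hc, hf⟩ : ∃ c : ℤ, c ≠ 0 ∧ fk d k = q * c ^ 2 := by
    unfold fk Dm
    rw [← hq]
    split_ifs
    · exact ⟨1, one_ne_zero, by ring⟩
    · exact ⟨2, two_ne_zero, by ring⟩
  apply _root_.P004H.aRk_congr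
  intro n
  have e1 : A * d ^ 2 * (fk d k) ^ 2 = A * (d * fk d k) ^ 2 := by ring
  have e2 : B * d ^ 3 * (fk d k) ^ 3 = B * (d * fk d k) ^ 3 := by ring
  rw [e1, e2]
  have hq0 : q ≠ 0 := h1.ne_zero
  refine _root_.P004H26.stIso hC.disc _ _ s (d * c) ?_ hm0 h3 (mul_ne_zero hd hc) ?_ n
  · rw [hf]
    exact mul_ne_zero hd (mul_ne_zero hq0 (pow_ne_zero 2 hc))
  · rw [hf]
    linear_combination (-d * c ^ 2) * h2

theorem fk_inj {d : ℤ} (hd : d ≠ 0) {k l : ℤ} (hk : Squarefree (4 * k + 1))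
    (hl : Squarefree (4 * l + 1)) (h : sqp (d * (4 * k + 1)) = sqp (d * (4 * l + 1))) : k = l := by
  obtain ⟨h1, s, h2, h3⟩ := sqp_spec (mul_ne_zero hd hk.ne_zero)
  obtain ⟨-, t, h5, h6⟩ := sqp_spec (mul_ne_zero hd hl.ne_zero)
  rw [h] at h2
  have h7 : (4 * k + 1) * t ^ 2 = (4 * l + 1) * s ^ 2 := by
    apply mul_left_cancel₀ hd
    linear_combination t ^ 2 * h2 - s ^ 2 * h5
  have h8 := sqf_unique hk hl h6 h3 h7
  omega

theorem fk_size {d k : ℤ} (hd : d ≠ 0) (hk : Squarefree (4 * k + 1)) :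
    |fk d k| ≤ 4 * |d| * |4 * k + 1| := by
  obtain ⟨h1, s, h2, h3⟩ := sqp_spec (mul_ne_zero hd hk.ne_zero)
  have h4 : |sqp (d * (4 * k + 1))| ≤ |d| * |4 * k + 1| := by
    rw [← abs_mul]
    conv_rhs => rw [h2]
    rw [abs_mul]
    have h5 : 1 ≤ |s ^ 2| := Int.one_le_abs (pow_ne_zero 2 h3)
    nlinarith [abs_nonneg (sqp (d * (4 * k + 1)))]
  have h5 : |fk d k| ≤ 4 * |sqp (d * (4 * k + 1))| := by
    unfold fk Dm
    split_ifs
    · nlinarith [abs_nonneg (sqp (d * (4 * k + 1)))]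
    · rw [abs_mul]; norm_num
  nlinarith

open scoped Classical in
/-- **rank zero for a positive proportion**, with an explicit constant -/
theorem rank_zeroF (hC : Cls A B) {d : ℤ} (hd : d ≠ 0) :
    ∃ X₀ : ℕ, ∀ X : ℕ, X₀ ≤ X → 1 / (4000 * |(d : ℝ)|) * X ≤
      (((_root_.P004.Fam X).filter (fun D => aRk (A * d ^ 2) (B * d ^ 3) D = 0)).card : ℝ) := by
  obtain ⟨Y₀, hY₀⟩ := Vale.Agent.P014.H71.fam_prop (1 / 12) (by norm_num)
  set K := 4 * d.natAbs with hK
  have hK0 : 0 < K := by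
    have := Int.natAbs_pos.2 hd
    omega
  refine ⟨K * (Y₀ + 1000000), fun X hX => ?_⟩
  set Y := X / K with hYdef
  have hYY₀ : Y₀ + 1000000 ≤ Y := by
    rw [hYdef, Nat.le_div_iff_mul_le hK0]
    linarith [Nat.mul_comm K (Y₀ + 1000000)]
  have hYX : K * Y ≤ X := Nat.mul_div_le X K
  have hXY : X < K * (Y + 1) := by
    have := Nat.lt_mul_div_succ X hK0
    simpa using this
  have h1 := hY₀ Y (by omega)
  have h2 := Vale.Agent.P014.H71.fam_ge Y (by omega)
  -- the finite set of good `k`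
  set G : Finset ℤ := (Finset.Icc (-(Y : ℤ)) Y).filter (fun k => |4 * k + 1| ≤ (Y : ℤ) ∧
    Vale.Agent.P014.H71.Fam k ∧ (NP (4 * k + 1).natAbs).det = 1) with hG
  have hGc : Nat.card {k : ℤ // |4 * k + 1| ≤ (Y : ℤ) ∧ Vale.Agent.P014.H71.Fam k ∧
      (NP (4 * k + 1).natAbs).det = 1} = G.card := by
    rw [← Fintype.card_coe, ← Nat.card_eq_fintype_card]
    refine Nat.card_congr (Equiv.subtypeEquivRight fun k => ?_)
    rw [hG, Finset.mem_filter, Finset.mem_Icc]
    constructor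
    · intro h
      refine ⟨?_, h⟩
      have := abs_le.1 h.1
      constructor <;> omega
    · exact fun h => h.2
  rw [hGc] at h1
  have h3 : (Y : ℝ) / 404 ≤ G.card := by
    have h4 : (1 / 3 - 1 / 12 : ℝ) * ((Y : ℝ) / 101) ≤ G.card :=
      (mul_le_mul_of_nonneg_left h2 (by norm_num)).trans h1
    linarith
  -- remove the trivial twist
  set G' := G.filter (fun k => sqp (d * (4 * k + 1)) ≠ 1) with hG'
  have hsqf : ∀ k ∈ G, Squarefree (4 * k + 1) := by
    intro k hk
    rw [hG, Finset.mem_filter] at hk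
    exact hk.2.2.1.1
  have h4 : G.card ≤ G'.card + 1 := by
    have h5 : (G.filter (fun k => ¬ sqp (d * (4 * k + 1)) ≠ 1)).card ≤ 1 := by
      rw [Finset.card_le_one]
      intro a ha b hb
      rw [Finset.mem_filter, not_not] at ha hb
      exact fk_inj hd (hsqf a ha.1) (hsqf b hb.1) (ha.2.trans hb.2.symm)
    have h6 := Finset.card_filter_add_card_filter_not (s := G)
      (fun k => sqp (d * (4 * k + 1)) ≠ 1)
    have h7 : G'.card = (G.filter (fun k => sqp (d * (4 * k + 1)) ≠ 1)).card := by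
      rw [hG']
    omega
  have h5 : G'.card ≤ ((_root_.P004.Fam X).filter
      (fun D => aRk (A * d ^ 2) (B * d ^ 3) D = 0)).card := by
    refine Finset.card_le_card_of_injOn (fun k => fk d k) ?_ ?_
    · intro k hk
      have hk' : k ∈ G' := hk
      rw [hG', Finset.mem_filter] at hk'
      obtain ⟨hkG, hne⟩ := hk'
      have hs := hsqf k hkG
      rw [hG, Finset.mem_filter] at hkG
      obtain ⟨-, g1, g2, g3⟩ := hkG
      have hsz := fk_size hd hs
      have hfund : _root_.P004.IsFund (fk d k) :=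
        isFund_Dm (sqp_spec (mul_ne_zero hd hs.ne_zero)).1 hne
      change fk d k ∈ _
      rw [Finset.mem_coe, Finset.mem_filter]
      unfold _root_.P004.Fam
      rw [Finset.mem_filter, Finset.mem_Icc]
      have h6 : |fk d k| ≤ (X : ℤ) := by
        calc |fk d k| ≤ 4 * |d| * |4 * k + 1| := hsz
          _ ≤ 4 * |d| * (Y : ℤ) := by gcongr
          _ = ((K * Y : ℕ) : ℤ) := by rw [hK]; push_cast; rfl
          _ ≤ X := by exact_mod_cast hYX
      refine ⟨⟨abs_le.1 h6, hfund⟩, ?_⟩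
      exact rank_fk hC hd g2 (by rw [g3]; exact one_ne_zero)
    · intro k hk l hl h
      have hk' := hsqf k (Finset.mem_filter.1 (show k ∈ G' from hk)).1
      have hl' := hsqf l (Finset.mem_filter.1 (show l ∈ G' from hl)).1
      refine fk_inj hd hk' hl' ?_
      exact Dm_inj (sqp_spec (mul_ne_zero hd hk'.ne_zero)).1
        (sqp_spec (mul_ne_zero hd hl'.ne_zero)).1 h
  have h6 : (G.card : ℝ) ≤ ((_root_.P004.Fam X).filter
      (fun D => aRk (A * d ^ 2) (B * d ^ 3) D = 0)).card + 1 := by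
    exact_mod_cast h4.trans (Nat.add_le_add_right h5 1)
  have hd' : (1 : ℝ) ≤ |(d : ℝ)| := by
    have := Int.one_le_abs hd
    exact_mod_cast this
  have h7 : (X : ℝ) ≤ 4 * |(d : ℝ)| * (Y + 1) := by
    have h8 : (X : ℝ) ≤ ((K * (Y + 1) : ℕ) : ℝ) := by exact_mod_cast hXY.le
    refine h8.trans (le_of_eq ?_)
    rw [hK]
    push_cast
    rw [Nat.cast_natAbs]
    push_cast
    ring
  have h8 : (1000000 : ℝ) ≤ Y := by exact_mod_cast (by omega : 1000000 ≤ Y)
  have h9 : 1 / (4000 * |(d : ℝ)|) * X ≤ (Y + 1) / 1000 := by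
    rw [div_mul_eq_mul_div, one_mul, div_le_div_iff₀ (by positivity) (by norm_num)]
    nlinarith
  linarith

end Vale.Agent.P004.H179
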