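import Vale.Agent.P004.H179.RZ17
import Vale.Agent.P004.H179.Dens17

/-!
# P004: analytic rank zero for the twists of the curves of conductor `17`: explicit lower density
-/

open Filter Topology
open scoped NumberTheorySymbols

namespace Vale.Agent.P004.H179

open _root_.P004G _root_.P004G.ML
open Vale.Agent.P004.H26 (Cls)
open Vale.Agent.P014 (tw NP)
open Dens (Na kap sum_Na Na_tendsto Fm Fm_tendsto)

/-- the classes of the family -/
def A17 : Finset ℕ := (Finset.range 68).filter fun a =>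
  (a % 4 = 3 ∧ a % 17 ∈ ({3, 5, 6, 7, 10, 11, 12, 14} : Finset ℕ)) ∨
    (a % 4 = 1 ∧ a % 17 ∈ ({1, 2, 4, 8, 9, 13, 15, 16} : Finset ℕ))

lemma card_A17 : A17.card = 16 := by decide

lemma A17_cop : ∀ a ∈ A17, a < 68 ∧ a.Coprime 68 := by decide

lemma jac17 (n : ℕ) :
    (jacobiSym (n : ℤ) 17 = 1 ↔ n % 17 ∈ ({1, 2, 4, 8, 9, 13, 15, 16} : Finset ℕ)) ∧
    (jacobiSym (n : ℤ) 17 = -1 ↔ n % 17 ∈ ({3, 5, 6, 7, 10, 11, 12, 14} : Finset ℕ)) := by
  have h1 : jacobiSym (n : ℤ) 17 = jacobiSym ((n % 17 : ℕ) : ℤ) 17 := by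
    rw [jacobiSym.mod_left]
    push_cast
    rfl
  rw [h1]
  have h2 : n % 17 < 17 := Nat.mod_lt _ (by norm_num)
  generalize n % 17 = r at h2
  interval_cases r <;> norm_num

open scoped Classical in
lemma fam_card (X : ℕ) (hX : 1 ≤ X) :
    Nat.card {k : ℤ // |4 * k + 1| ≤ (X : ℤ) ∧ Vale.Agent.P014.H71.Fam k} + 1 =
      ∑ a ∈ A17, Na a X := by
  rw [Vale.Agent.P014.H71.card_fam', sum_Na]
  have h1 : (Finset.Icc 1 X).filter (fun n => Squarefree n ∧ n % 68 ∈ A17) =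
      Vale.Agent.P014.FM.Dm X ∪ Vale.Agent.P014.H687.DP.Dp X := by
    ext n
    simp only [Finset.mem_union, Finset.mem_filter, Finset.mem_Icc, A17, Finset.mem_range,
      Vale.Agent.P014.FM.Dm, Vale.Agent.P014.H687.DP.Dp, Vale.Agent.P014.FM.IsDm,
      Vale.Agent.P014.H687.DP.IsDp, Nat.lt_succ_iff]
    have e1 : n % 68 % 4 = n % 4 := Nat.mod_mod_of_dvd n ⟨17, rfl⟩
    have e2 : n % 68 % 17 = n % 17 := Nat.mod_mod_of_dvd n ⟨4, rfl⟩
    rw [e1, e2, ← (jac17 n).1, ← (jac17 n).2]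
    constructor
    · rintro ⟨⟨h1, h2⟩, h3, -, ⟨h4, h5⟩ | ⟨h4, h5⟩⟩
      · exact Or.inl ⟨h2, h3, h4, h5⟩
      · exact Or.inr ⟨h2, h3, h4, h5⟩
    · rintro (⟨h2, h3, h4, h5⟩ | ⟨h2, h3, h4, h5⟩)
      · exact ⟨⟨by omega, h2⟩, h3, Nat.le_of_lt_succ (Nat.mod_lt n (by norm_num : 68 > 0)), Or.inl ⟨h4, h5⟩⟩
      · exact ⟨⟨by omega, h2⟩, h3, Nat.le_of_lt_succ (Nat.mod_lt n (by norm_num : 68 > 0)), Or.inr ⟨h4, h5⟩⟩
  rw [h1, Finset.card_union_of_disjoint]
  · have h2 : 1 ∈ Vale.Agent.P014.H687.DP.Dp X := by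
      simp only [Vale.Agent.P014.H687.DP.Dp, Vale.Agent.P014.H687.DP.IsDp, Finset.mem_filter,
        Finset.mem_range]
      refine ⟨by omega, squarefree_one, by norm_num, by norm_num⟩
    rw [Finset.card_erase_of_mem h2]
    have h3 : 0 < (Vale.Agent.P014.H687.DP.Dp X).card := Finset.card_pos.2 ⟨1, h2⟩
    omega
  · rw [Finset.disjoint_left]
    intro n h1 h2
    simp only [Finset.mem_filter, Vale.Agent.P014.FM.Dm, Vale.Agent.P014.H687.DP.Dp,
      Vale.Agent.P014.FM.IsDm, Vale.Agent.P014.H687.DP.IsDp] at h1 h2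
    have a1 := h1.2.2.1
    have a2 := h2.2.2.1
    omega

open scoped Classical in
theorem fam_tendsto : Tendsto (fun X : ℕ =>
    (Nat.card {k : ℤ // |4 * k + 1| ≤ (X : ℤ) ∧ Vale.Agent.P014.H71.Fam k} : ℝ) / X) atTop
    (𝓝 (16 * kap)) := by
  have h1 : Tendsto (fun X : ℕ => ∑ a ∈ A17, (Na a X : ℝ) / X) atTop (𝓝 (∑ a ∈ A17, kap)) :=
    tendsto_finsetSum _ fun a ha => Na_tendsto (A17_cop a ha).1 (A17_cop a ha).2
  rw [Finset.sum_const, card_A17, nsmul_eq_mul] at h1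
  have h5 : Tendsto (fun Y : ℕ => 1 / (Y : ℝ)) atTop (𝓝 0) := tendsto_one_div_atTop_nhds_zero_nat
  have h2 := h1.sub h5
  rw [sub_zero] at h2
  push_cast at h2
  refine h2.congr' ?_
  filter_upwards [eventually_ge_atTop 1] with X hX
  have h6 := fam_card X hX
  have h7 : (Nat.card {k : ℤ // |4 * k + 1| ≤ (X : ℤ) ∧ Vale.Agent.P014.H71.Fam k} : ℝ) + 1 =
      ∑ a ∈ A17, (Na a X : ℝ) := by exact_mod_cast h6
  rw [← Finset.sum_div, ← h7]
  ring

open scoped Classical in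
theorem kap_pos : 0 < kap := by
  have h1 := fam_tendsto
  have h2 : (1 / 101 : ℝ) ≤ 16 * kap := by
    refine ge_of_tendsto h1 ?_
    filter_upwards [eventually_ge_atTop 1000000] with X hX
    have h3 := Vale.Agent.P014.H71.fam_ge X hX
    have h8 : (0 : ℝ) < X := by
      have : 0 < X := by omega
      exact_mod_cast this
    rw [le_div_iff₀ h8]
    linarith
  linarith

theorem fam_eq (X : ℕ) : Fm X = _root_.P004.Fam X := rfl

open scoped Classical in
/-- the family makes up `17/54` of all fundamental discriminants -/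
theorem ratio_tendsto : Tendsto (fun X : ℕ =>
    (Nat.card {k : ℤ // |4 * k + 1| ≤ (X : ℤ) ∧ Vale.Agent.P014.H71.Fam k} : ℝ) /
      (_root_.P004.Fam X).card) atTop (𝓝 (17 / 54)) := by
  have h1 := fam_tendsto
  have h2 := Fm_tendsto
  have hk := kap_pos
  have h3 : (32 * kap * (27 / 17) : ℝ) ≠ 0 := by positivity
  have h4 := h1.div h2 h3
  have e : (16 * kap) / (32 * kap * (27 / 17)) = 17 / 54 := by
    field_simp
    ring
  rw [e] at h4
  refine h4.congr' ?_
  filter_upwards [eventually_ge_atTop 1] with X hX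
  have h8 : (X : ℝ) ≠ 0 := by
    have : 0 < X := by omega
    positivity
  simp only [Pi.div_apply]
  rw [div_div_div_cancel_right₀ h8, fam_eq]

open scoped Classical in
/-- **lower density `17/162`** of the twists of analytic rank zero, for the curves of
conductor `17` -/
theorem lower_density {A B : ℤ} (hC : Cls A B) (ε : ℝ) (hε : 0 < ε) :
    ∃ X₀ : ℕ, ∀ X : ℕ, X₀ ≤ X → (17 / 162 - ε) * ((_root_.P004.Fam X).card : ℝ) ≤
      (((_root_.P004.Fam X).filter (fun D => aRk A B D = 0)).card : ℝ) := by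
  obtain ⟨Y₀, hY₀⟩ := Vale.Agent.P014.H71.fam_prop (ε / 2) (by positivity)
  have h1 := ratio_tendsto
  have h2 := (Metric.tendsto_atTop.1 h1) (ε / 2) (by positivity)
  obtain ⟨Y₁, hY₁⟩ := h2
  refine ⟨max Y₀ (max Y₁ 8), fun X hX => ?_⟩
  have hX0 : Y₀ ≤ X := (le_max_left _ _).trans hX
  have hX1 : Y₁ ≤ X := (le_max_left _ _).trans ((le_max_right _ _).trans hX)
  have hX8 : 8 ≤ X := (le_max_right _ _).trans ((le_max_right _ _).trans hX)
  have h3 := hY₀ X hX0
  have h4 := hY₁ X hX1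
  set F : ℝ := ((_root_.P004.Fam X).card : ℝ) with hF
  set M : ℝ := (Nat.card {k : ℤ // |4 * k + 1| ≤ (X : ℤ) ∧ Vale.Agent.P014.H71.Fam k} : ℝ)
    with hM
  have hF0 : 0 < F := by
    have h5 : (-4 : ℤ) ∈ _root_.P004.Fam X := by
      unfold _root_.P004.Fam
      rw [Finset.mem_filter, Finset.mem_Icc]
      refine ⟨by omega, by norm_num, Or.inr ⟨-1, by norm_num, by norm_num, ?_⟩⟩
      rw [← Int.squarefree_natAbs]
      norm_num
    rw [hF]
    exact_mod_cast Finset.card_pos.2 ⟨_, h5⟩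
  rw [Real.dist_eq, abs_lt] at h4
  have h5 : (17 / 54 - ε / 2) * F ≤ M := by
    have h6 : 17 / 54 - ε / 2 < M / F := by linarith [h4.1]
    rw [lt_div_iff₀ hF0] at h6
    exact h6.le
  have h6 : M ≤ F := by
    have h7 : Nat.card {k : ℤ // |4 * k + 1| ≤ (X : ℤ) ∧ Vale.Agent.P014.H71.Fam k} ≤
        (_root_.P004.Fam X).card := by
      rw [← Fintype.card_coe, ← Nat.card_eq_fintype_card]
      refine Nat.card_le_card_of_injective (fun k => ⟨4 * k.1 + 1, ?_⟩) ?_
      · obtain ⟨k, h8, h9⟩ := k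
        unfold _root_.P004.Fam
        rw [Finset.mem_filter, Finset.mem_Icc]
        refine ⟨abs_le.1 h8, ?_, Or.inl ⟨by omega, h9.1⟩⟩
        have h11 := h9.2.1
        change 4 * k + 1 ≠ 1
        omega
      · intro k l h
        have h10 := congrArg (fun z => (z : {z // z ∈ _root_.P004.Fam X}).1) h
        simp only at h10
        apply Subtype.ext
        omega
    rw [hM, hF]
    exact_mod_cast h7
  have h7 : (Nat.card {k : ℤ // |4 * k + 1| ≤ (X : ℤ) ∧ Vale.Agent.P014.H71.Fam k ∧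
      (NP (4 * k + 1).natAbs).det = 1} : ℝ) ≤
      (((_root_.P004.Fam X).filter (fun D => aRk A B D = 0)).card : ℝ) := by
    rw [Nat.cast_le, ← Fintype.card_coe, ← Nat.card_eq_fintype_card]
    refine Nat.card_le_card_of_injective (fun k => ⟨4 * k.1 + 1, ?_⟩) ?_
    · obtain ⟨k, h8, h9, h10⟩ := k
      rw [Finset.mem_filter]
      unfold _root_.P004.Fam
      rw [Finset.mem_filter, Finset.mem_Icc]
      refine ⟨⟨abs_le.1 h8, ?_, Or.inl ⟨by omega, h9.1⟩⟩, ?_⟩
      · have h11 := h9.2.1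
        change 4 * k + 1 ≠ 1
        omega
      · exact rank_zero hC h9 (by rw [h10]; exact one_ne_zero)
    · intro k l h
      have h10 := congrArg (fun z => (z : {z // z ∈ (_root_.P004.Fam X).filter
        (fun D => aRk A B D = 0)}).1) h
      simp only at h10
      apply Subtype.ext
      omega
  refine le_trans ?_ (h3.trans h7)
  by_cases hc : 1 / 3 - ε / 2 ≤ 0
  · have h8 : (17 / 162 - ε) * F ≤ (1 / 3 - ε / 2) * F := by
      apply mul_le_mul_of_nonneg_right _ hF0.le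
      linarith
    have h9 : (1 / 3 - ε / 2) * F ≤ (1 / 3 - ε / 2) * M :=
      mul_le_mul_of_nonpos_left h6 hc
    exact h8.trans h9
  · push Not at hc
    have h8 : (1 / 3 - ε / 2) * ((17 / 54 - ε / 2) * F) ≤ (1 / 3 - ε / 2) * M :=
      mul_le_mul_of_nonneg_left h5 hc.le
    refine le_trans ?_ h8
    rw [← mul_assoc]
    apply mul_le_mul_of_nonneg_right _ hF0.le
    nlinarith

end Vale.Agent.P004.H179
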